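import Vale.Agent.P088.R2.H844.E.Reg
import Vale.Agent.P088.R2.H710.E.PR
import Vale.Agent.P088.R2.H710.EP.DC
import Vale.Agent.P088.R2.H912.A.Sup
import Vale.Agent.P088.R2.H912.A.Cl
import Vale.Agent.P088.R2.H509.E.PA
import Vale.Agent.P088.R2.H808.A.Sym
import Vale.Agent.P088.R2.H281.P.PSup
import Vale.Agent.P088.R2.H281.EP.Bas
import Vale.Agent.P088.R2.H222.P.PSz

/-!
# P088, stage 3, EST': the cost of the leaves `A1`, `A2` against the passes `P1`, `P2`
-/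

open Set Filter
open scoped ContDiff Topology Matrix

noncomputable section

namespace Vale.Agent.P088.R2.H912.E

open Vale.Agent.P088.LR
open Vale.Agent.P088.HY hiding dd
open Vale.Agent.P088.R2.H31.EP Vale.Agent.P088.R2.H230.W
open Vale.Agent.P088.R2.H455.E Vale.Agent.P088.R2.H551.E
open Vale.Agent.P088.R2.H867.EP (Zo)
open Vale.Agent.P088.R2.H844.E (RowPayF PayF)
open Vale.Agent.P088.R2.H509.PT (Lay Big coA_le cub)
open Vale.Agent.P088.R2.H710.PR (big_P big_Pm)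
open Vale.Agent.P088.R2.H660.P (OmP kP RowPSup MP MPm)
open Vale.Agent.P088.R2.H747.A (mA OmA OmB RowSup RowSym Bd)
open Vale.Agent.P088.R2.H912.A (Dv Dir dirX dirY ex ey OB Tw Pt pt_ok W_vec ux_ina ina_of
  nn_grad_le D01_le evTw ob_of wx2_eq wy2_eq tq rr_sq)

variable {n : ℕ} {q : Cst} {d : Pk n} {z : VV n} {e : Fin n → VV n} {s : ℝ} {pt : VV n → V n}

/-! ## The gradient at the passes -/

theorem grad_le (D : Dir e s pt) (T : Tw n q) (h : PkOk q d) (O : OB q d z)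
    (hpt : pt z = z.1 ∨ pt z = z.2) (hr : 4 < d.r2 z)
    (hL : prL q.e₁ (H747.A.rr d z) ≤ 103 / 100) :
    nn (Dv e (d.W q) z) ≤ 3 * H747.A.NG q d z := by
  have P := pt_ok D T h O
  have hR := T.I.R0
  have he := T.rad.e0
  have e1 : H747.A.NG q d z = deriv d.Φ (d.u q z) + H912.A.GG q d z := (H912.A.NG_eq T h O).1
  rw [W_vec e h (h.gi_sm T.ε2) O.l1 O.l2 hR he P.r0, e1]
  have N1 := H912.A.N_one T h (d.u q z)
  have G0 := H912.A.GG_pos h P.r0
  have hu : nn (Dv e (d.u q) z) ≤ 101 / 100 := by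
    rw [ux_ina D h (h.gi_sm T.ε2) (ina_of h hr)]
    have hσ : 5 * q.σ ≤ 1 / 100 := by
      have h1 := T.σe
      have h2 := T.rad.e1
      linarith
    rcases hpt with h1 | h1
    · rw [h1]
      exact (nn_grad_le T.I h (by linarith [O.l1])).trans (by linarith)
    · rw [h1]
      exact (nn_grad_le T.I h (by linarith [O.l2])).trans (by linarith)
  have hb : nn ((2 * √(d.r2 z))⁻¹ • Dv e d.r2 z) ≤ 5 / 4 := P.b2.trans (by linarith [T.t1])
  have hD := D01_le h P.r0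
  have hes : q.es ≤ 1 / 40 := by
    have h1 := T.es1
    have h2 := T.rad.e1
    linarith
  have hG : |H912.A.GG q d z * prL q.e₁ (H912.A.rr d z) + H912.A.D01 q d z| ≤
      11 / 10 * H912.A.GG q d z := by
    have h1 : 0 ≤ H912.A.GG q d z * prL q.e₁ (H912.A.rr d z) :=
      mul_nonneg G0.le (H912.A.L_pos he _).le
    refine (abs_add_le _ _).trans ?_
    rw [abs_of_nonneg h1]
    have h2 : H912.A.GG q d z * prL q.e₁ (H912.A.rr d z) ≤ H912.A.GG q d z * (103 / 100) :=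
      mul_le_mul_of_nonneg_left hL G0.le
    have h3 : q.es * H912.A.GG q d z ≤ 1 / 40 * H912.A.GG q d z :=
      mul_le_mul_of_nonneg_right hes G0.le
    linarith
  refine (nn_add_le _ _).trans ?_
  rw [nn_smul, nn_smul, abs_of_pos (by linarith)]
  have k1 : (deriv d.Φ (d.u q z) + H912.A.GG q d z) * nn (Dv e (d.u q) z) ≤
      (deriv d.Φ (d.u q z) + H912.A.GG q d z) * (101 / 100) :=
    mul_le_mul_of_nonneg_left hu (by linarith)
  have k2 := mul_le_mul hG hb (nn_nonneg _) (by positivity)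
  linarith

/-! ## The numbers -/

/-- The constant of the margin of the passes. -/
def cQ (L : Lc n) (q : Cst) : ℝ := L.cP q * (q.rT ^ 2 / 256)

/-- `|D χ|² ≤ B`. -/
def BB (n : ℕ) (B : Cst → ℝ) (q : Cst) : ℝ := n * B q ^ 2

/-- The threshold of `e`. -/
def thP (L : Lc n) (B : Cst → ℝ) (q : Cst) : ℝ :=
  (if 0 < q.rT then cQ L q else 1) / (2 * (34 * (144 * BB n B q * 9)) + 1)

/-- The lower bound of `G`. -/
def KP' (L : Lc n) (B e : Cst → ℝ) (q : Cst) : ℝ :=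
  1 + |(34 * (32 * e q * BB n B q) + 2 * (34 * (6 * (L.μA q + 1) * BB n B q / e q)) +
    2 * (34 * (144 * e q * BB n B q * 9))) / cQ L q|

theorem cQ_nb {L : Lc n} (hL : L.Ok) : NB_c' (cQ L) := fun q => by
  have h1 : L.cP q.b_c' = L.cP q := H509.PA.NB_rT.c' hL.cP.2 q
  have h2 : q.b_c'.rT = q.rT := rfl
  unfold cQ
  rw [h1, h2]

theorem BB_nb {B : Cst → ℝ} (hB : NB_c' B) : NB_c' (BB n B) := fun q => by
  unfold BB
  rw [hB q]

theorem BB_nn {B : Cst → ℝ} : 0 ≤ BB n B q := by unfold BB; positivity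

theorem thP_sm {L : Lc n} (hL : L.Ok) {B : Cst → ℝ} (hB : NB_c' B) : SmE (thP L B) := by
  refine ⟨fun q => ?_, fun q => ?_⟩
  · have h1 := cQ_nb hL q
    have h2 := BB_nb (n := n) hB q
    have h3 : q.b_c'.rT = q.rT := rfl
    unfold thP
    rw [h1, h2, h3]
  · have h1 := BB_nn (n := n) (B := B) (q := q)
    have h2 : 0 < (if 0 < q.rT then cQ L q else 1) := by
      split_ifs with h0
      · have := hL.cP.1 q
        unfold cQ
        positivity
      · exact one_pos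
    unfold thP
    positivity

theorem KP'_nb {L : Lc n} (hL : L.Ok) {B e : Cst → ℝ} (hB : NB_c' B) (he : NB_c' e) :
    NB_M₀ (KP' L B e) := by
  have h : NB_c' (KP' L B e) := fun q => by
    have h1 := cQ_nb hL q
    have h2 := BB_nb (n := n) hB q
    have h3 : L.μA q.b_c' = L.μA q := hL.μA.2 q
    have h4 : e q.b_c' = e q := he q
    unfold KP'
    rw [h1, h2, h3, h4]
  exact H509.PA.NB_c'.M₀ h

/-- The inequalities of the payment. -/
theorem nums {L : Lc n} (hL : L.Ok) {B e : Cst → ℝ} (hT : 0 < q.rT) (he : 0 < e q)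
    (h1 : e q ≤ thP L B q) {N : ℝ} (hM : KP' L B e q ≤ N) :
    34 * (32 * e q * BB n B q) ≤ cQ L q * N ∧
      34 * (6 * (L.μA q + 1) * BB n B q / e q * N) + 34 * (144 * e q * BB n B q * 9) * N ^ 2 ≤
        cQ L q * N ^ 2 ∧
      34 * (6 * (L.μA q + 1) * BB n B q / e q * N) + 34 * (144 * e q * BB n B q * 9) * N ^ 2 ≤
        cQ L q * N ^ 3 := by
  have hB := BB_nn (n := n) (B := B) (q := q)
  have hc : 0 < cQ L q := by
    have := hL.cP.1 q
    unfold cQ
    positivity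
  have hμ := hL.μA.1 q
  have hN1 : 1 ≤ N := le_trans (by unfold KP'; linarith [abs_nonneg ((34 * (32 * e q * BB n B q) +
    2 * (34 * (6 * (L.μA q + 1) * BB n B q / e q)) +
    2 * (34 * (144 * e q * BB n B q * 9))) / cQ L q)]) hM
  have h2 : (34 * (32 * e q * BB n B q) + 2 * (34 * (6 * (L.μA q + 1) * BB n B q / e q)) +
    2 * (34 * (144 * e q * BB n B q * 9))) / cQ L q ≤ N := by
    refine le_trans ?_ hM
    unfold KP'
    linarith [le_abs_self ((34 * (32 * e q * BB n B q) +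
      2 * (34 * (6 * (L.μA q + 1) * BB n B q / e q)) +
      2 * (34 * (144 * e q * BB n B q * 9))) / cQ L q)]
  rw [div_le_iff₀ hc] at h2
  have t1 : 0 ≤ 34 * (32 * e q * BB n B q) := by positivity
  have t2 : 0 ≤ 2 * (34 * (6 * (L.μA q + 1) * BB n B q / e q)) := by positivity
  have t3 : 0 ≤ 2 * (34 * (144 * e q * BB n B q * 9)) := by positivity
  have s1 : 34 * (32 * e q * BB n B q) ≤ cQ L q * N := by linarith
  have s2 : 34 * (6 * (L.μA q + 1) * BB n B q / e q) ≤ 1 / 2 * (cQ L q * N) := by linarith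
  have s3 : 34 * (144 * e q * BB n B q * 9) ≤ 1 / 2 * cQ L q := by
    unfold thP at h1
    rw [if_pos hT, le_div_iff₀ (by positivity)] at h1
    nlinarith
  have hN0 : 0 ≤ N := by linarith
  have s4 : 34 * (6 * (L.μA q + 1) * BB n B q / e q * N) ≤ 1 / 2 * (cQ L q * N ^ 2) := by
    have := mul_le_mul_of_nonneg_right s2 hN0
    linarith
  have s5 : 34 * (144 * e q * BB n B q * 9) * N ^ 2 ≤ 1 / 2 * (cQ L q * N ^ 2) := by
    have := mul_le_mul_of_nonneg_right s3 (sq_nonneg N)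
    linarith
  have s6 : cQ L q * N ^ 2 ≤ cQ L q * N ^ 3 := mul_le_mul_of_nonneg_left (cub hN1) hc.le
  exact ⟨s1, by linarith, by linarith⟩

/-! ## The facts at a point -/

/-- The facts at a common point of a leaf of zone A and of a leaf of the passes. -/
structure Fp (L : Lc n) (B e : Cst → ℝ) (q : Cst) (d : Pk n) (χ : VV n → ℝ) (z : VV n) : Prop where
  big : Big (MP d.sx d.sy (d.W q) (H747.A.GG q d) (L.cP q)) (1 / 4) (cQ L q) (H747.A.NG q d z)
    (H747.A.NG q d z ^ 2) (H747.A.NG q d z ^ 3) z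
  big' : Big (MPm d.sx d.sy (d.W q) (H747.A.GG q d) (L.cP q)) (1 / 4) (cQ L q)
    (H747.A.NG q d z) (H747.A.NG q d z ^ 3) (H747.A.NG q d z ^ 2) z
  lay : Lay d.sx d.sy (d.W q) (mA L.μA q d) χ (BB n B q) (L.μA q + 1) (H747.A.NG q d z) 9 9 z
  N : KP' L B e q ≤ H747.A.NG q d z

theorem dx_nn (f : VV n → ℝ) (z : VV n) :
    ∑ i, d.sx.D i f z ^ 2 = nn (Dv ex f z) ^ 2 := by
  rw [H912.A.nn_sq']
  refine Finset.sum_congr rfl fun i _ => ?_
  show (1 * _) ^ 2 = _
  rw [one_mul]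
  rfl

theorem dy_nn (f : VV n → ℝ) (z : VV n) :
    ∑ i, d.sy.D i f z ^ 2 = nn (Dv ey f z) ^ 2 := by
  rw [H912.A.nn_sq']
  refine Finset.sum_congr rfl fun i _ => ?_
  show (1 * _) ^ 2 = _
  rw [one_mul]
  rfl

theorem sxD_eq (f : VV n → ℝ) (z : VV n) (i : Fin n) :
    d.sx.D i f z = fderiv ℝ f z (Pi.single i 1, 0) := by
  show 1 * _ = _
  rw [one_mul]
  rfl

theorem syD_eq (f : VV n → ℝ) (z : VV n) (i : Fin n) :
    d.sy.D i f z = fderiv ℝ f z (0, Pi.single i 1) := by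
  show 1 * _ = _
  rw [one_mul]
  rfl

/-- **The facts hold.** -/
theorem evFp (hn : 1 ≤ n) {L : Lc n} (hL : L.Ok) : ∃ B : Cst → ℝ, NB_c' B ∧
    ∀ e : Cst → ℝ, SmE e → EvC fun q => 0 < q.rT ∧ ∀ d : Pk n, PkOk q d → ∀ z,
      d.tinf q z ≤ 0 → ∀ k : Zo, (k = .A1 ∨ k = .A2) → d.ch q k z ≠ 0 →
        (d.ch q .P1 z ≠ 0 ∨ d.ch q .P2 z ≠ 0) → Fp L B e q d (d.ch q k) z := by
  obtain ⟨B, hB, hB0, hA⟩ := H710.DC.chA hn
  refine ⟨B, hB, fun e he => ?_⟩
  obtain ⟨C, -, -, hS⟩ := H808.A.rowSym n (fun _ => 1) (fun _ => rfl) fun _ => one_pos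
  have hsup1 := H912.A.rowSup n .A1 (by simp)
  have hsup2 := H912.A.rowSup n .A2 (by simp)
  have hsz := H222.P.rowPSz' n (KP' L B e) (fun _ => 1) (KP'_nb hL hB he.1) (fun _ => rfl)
    fun _ => one_pos
  refine (((hA.and hS).and (hsup1.and hsup2)).and ((hsz.and (H281.P.rowPSup n)).and
    ((evTw n).and (H281.EP.rowBas n)))).mono ?_
  rintro q ⟨⟨⟨hA, hS⟩, hs1, hs2⟩, ⟨hz, hp⟩, T, hbas⟩
  refine ⟨T.rT0, fun d h z ht k hk hck hcp => ?_⟩
  obtain ⟨hk0, hkp, hz⟩ := hz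
  have hb := hbas d h
  -- the point is in the open sets
  have hOA : z ∈ OmA q d := by
    rcases hk with rfl | rfl
    · exact (hs1 d h).2 (subset_tsupport _ hck)
    · exact (hs2 d h).2 (subset_tsupport _ hck)
  obtain ⟨b, hOP⟩ : ∃ b, z ∈ OmP q d b := by
    rcases hcp with h1 | h1
    · exact ⟨true, (hp d h).2.2.1 (subset_tsupport _ h1)⟩
    · exact ⟨false, (hp d h).2.2.2 (subset_tsupport _ h1)⟩
  obtain ⟨z1, z2, z3, -, -, z6, -, z8, -, -, -, -⟩ := hz d h b z hOP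
  obtain ⟨hOB, hx, hy⟩ := hOA
  have O : OB q d z := ob_of hOB
  have hsym := (hS d h z hOB).1
  have hr0 : 0 < d.r2 z := lt_of_le_of_lt (sq_nonneg _) O.r
  have hr4 : 4 < d.r2 z := by
    have e1 : H747.A.rr d z ^ 2 = d.r2 z := Real.sq_sqrt hr0.le
    have h2 : (100 : ℝ) ^ 2 ≤ H747.A.rr d z ^ 2 := pow_le_pow_left₀ (by norm_num) z8 2
    rw [e1] at h2
    linarith
  have gX := grad_le dirX T h O (Or.inl rfl) hr4 z6
  have gY := grad_le dirY T h O (Or.inr rfl) hr4 z6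
  have N1 : 1 ≤ KP' L B e q := by
    unfold KP'
    linarith [abs_nonneg ((34 * (32 * e q * BB n B q) +
      2 * (34 * (6 * (L.μA q + 1) * BB n B q / e q)) +
      2 * (34 * (144 * e q * BB n B q * 9))) / cQ L q)]
  have hG0 : 0 < H747.A.GG q d z := by linarith
  have hNG : H747.A.NG q d z = d.N q z + H747.A.GG q d z := rfl
  have hG1 : 1 / 2 * H747.A.NG q d z ≤ H747.A.GG q d z := by
    have := mul_le_mul_of_nonneg_right hkp hG0.le
    rw [hNG]
    linarith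
  have hN : KP' L B e q ≤ H747.A.NG q d z := by
    rw [hNG]
    linarith
  have hNp : 0 < H747.A.NG q d z := by linarith
  -- the lower bounds of `F`
  have fX : q.rT ^ 2 / 128 * H747.A.NG q d z ^ 2 ≤ d.sx.F (d.W q) z := by
    have h1 := (hb.e₁ z.1 fun i => d.sx.D i (d.W q) z).1
    have h2 : (q.rT / 8 * H747.A.NG q d z) ^ 2 < ∑ i, d.sx.D i (d.W q) z ^ 2 := hx
    refine le_trans ?_ h1
    nlinarith
  have fY : q.rT ^ 2 / 128 * H747.A.NG q d z ^ 2 ≤ d.sy.F (d.W q) z := by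
    have h1 := (hb.e₂ z.2 fun i => d.sy.D i (d.W q) z).1
    have h2 : (q.rT / 8 * H747.A.NG q d z) ^ 2 < ∑ i, d.sy.D i (d.W q) z ^ 2 := hy
    refine le_trans ?_ h1
    nlinarith
  have hρ := hL.cP.1 q
  have hT0 := T.rT0
  have hT1 := T.rT1
  have hT2 : q.rT ^ 2 ≤ 1 := pow_le_one₀ hT0.le hT1
  have fX0 : 0 ≤ d.sx.F (d.W q) z := le_trans (by positivity) fX
  have fY0 : 0 ≤ d.sy.F (d.W q) z := le_trans (by positivity) fY
  have p1 : cQ L q ≤ L.cP q * (1 / 2) := by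
    unfold cQ
    exact mul_le_mul_of_nonneg_left (by linarith) hρ.le
  have p2 : cQ L q ≤ L.cP q * (1 / 2) ^ 2 := by
    unfold cQ
    exact mul_le_mul_of_nonneg_left (by linarith) hρ.le
  have p3 : cQ L q ≤ L.cP q * (1 / 2 * (q.rT ^ 2 / 128)) := by
    unfold cQ
    exact mul_le_mul_of_nonneg_left (by linarith) hρ.le
  have hTT : 0 ≤ q.rT ^ 2 / 128 := by positivity
  -- the cut-off
  have kx : ∀ i : Fin n, |d.sx.D i (d.ch q k) z| ≤ B q := fun i => by
    have h1 := hsym.x i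
    rw [sxD_eq] at h1 ⊢
    exact hA d h z ht k hk hck _ (H509.PA.norm_ex i) h1
  have ky : ∀ i : Fin n, |d.sy.D i (d.ch q k) z| ≤ B q := fun i => by
    have h1 := hsym.y i
    rw [syD_eq] at h1 ⊢
    exact hA d h z ht k hk hck _ (H509.PA.norm_ey i) h1
  have dX := H509.PA.sum_sq kx
  have dY := H509.PA.sum_sq ky
  -- the margin
  have hm0 : 0 ≤ mA L.μA q d z := by
    have := hL.μA.1 q
    have h1 := T.I.σ0
    have h2 := T.I.R0
    have h3 : 0 < H747.A.rr d z := by linarith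
    unfold H747.A.mA
    positivity
  have hm1 : mA L.μA q d z ≤ (L.μA q + 1) * H747.A.NG q d z := by
    have h0 := hL.μA.1 q
    have h1 := T.I.σ0
    have h2 := T.I.R0
    have h3 : 1 ≤ H747.A.rr d z := by linarith
    have h4 : H747.A.GG q d z / H747.A.rr d z ≤ H747.A.NG q d z := by
      rw [div_le_iff₀ (by linarith)]
      have : H747.A.NG q d z * 1 ≤ H747.A.NG q d z * H747.A.rr d z :=
        mul_le_mul_of_nonneg_left h3 hNp.le
      rw [hNG] at this ⊢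
      linarith
    have h5 : q.σ / (400 * q.R) ≤ 1 := by
      have hR1 := T.I.R1
      have hσ1 := T.I.σ1
      rw [div_le_one (by linarith)]
      linarith
    have h6 := mul_le_mul_of_nonneg_left h4 h0.le
    have h7 := mul_le_mul_of_nonneg_right h5 hNp.le
    unfold H747.A.mA
    linarith
  refine ⟨?_, ?_, ⟨hm0, hm1, dX, dY, ?_, ?_, ?_, ?_⟩, hN⟩
  · exact big_P hρ.le (by norm_num) hTT hNp.le hG1 fX0 fY p1 p2 p3
  · exact big_Pm hρ.le (by norm_num) hTT hNp.le hG1 fX fY0 p1 p2 p3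
  · have h1 := (hb.e₁ z.1 fun i => d.sx.D i (d.ch q k) z).2
    exact h1.trans (by unfold BB; linarith)
  · have h1 := (hb.e₂ z.2 fun i => d.sy.D i (d.ch q k) z).2
    exact h1.trans (by unfold BB; linarith)
  · rw [dx_nn]
    have h1 := pow_le_pow_left₀ (nn_nonneg _) gX 2
    exact h1.trans (le_of_eq (by ring))
  · rw [dy_nn]
    have h1 := pow_le_pow_left₀ (nn_nonneg _) gY 2
    exact h1.trans (le_of_eq (by ring))

/-! ## The payments -/

/-- **The pairs (`A1`, `P1`), (`A2`, `P1`)** where `tinf ≤ 0`. -/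
theorem payA_P1 (hn : 1 ≤ n) {L : Lc n} (hL : L.Ok) (hG : L.GP = H747.A.GG) {k : Zo}
    (hk : k = .A1 ∨ k = .A2) : PayF L k .P1 := by
  obtain ⟨B, hB, hF⟩ := evFp hn hL
  refine ⟨thP L B, thP_sm hL hB, fun e he h1 => (hF e he).mono ?_⟩
  rintro q ⟨hT, hF⟩ d h z ht hck hcj a b
  have F := hF d h z ht k hk hck (Or.inl hcj)
  obtain ⟨n1, n2, n3⟩ := nums hL hT (he.2 q) (h1 q) F.N
  have key : 34 * den d q (H747.SW.coA d.sx d.sy (d.W q) (mA L.μA q d) (d.ch q k) (e q)) a b z ≤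
      den d q (MP d.sx d.sy (d.W q) (H747.A.GG q d) (L.cP q)) a b z :=
    coA_le (v₁ := fun _ => 0) (v₂ := fun _ => 0) (a := a) (b := b) F.big F.lay (by norm_num)
      (he.2 q) BB_nn (by norm_num) n1 n2 n3
  have e2 : Mz L q d .P1 = MP d.sx d.sy (d.W q) (H747.A.GG q d) (L.cP q) := by
    show MP d.sx d.sy (d.W q) (L.GP q d) (L.cP q) = _
    rw [hG]
  rw [e2]
  rcases hk with rfl | rfl
  · exact key
  · exact key

/-- **The pairs (`A1`, `P2`), (`A2`, `P2`)** where `tinf ≤ 0`. -/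
theorem payA_P2 (hn : 1 ≤ n) {L : Lc n} (hL : L.Ok) (hG : L.GP = H747.A.GG) {k : Zo}
    (hk : k = .A1 ∨ k = .A2) : PayF L k .P2 := by
  obtain ⟨B, hB, hF⟩ := evFp hn hL
  refine ⟨thP L B, thP_sm hL hB, fun e he h1 => (hF e he).mono ?_⟩
  rintro q ⟨hT, hF⟩ d h z ht hck hcj a b
  have F := hF d h z ht k hk hck (Or.inr hcj)
  obtain ⟨n1, n2, n3⟩ := nums hL hT (he.2 q) (h1 q) F.N
  have key : 34 * den d q (H747.SW.coA d.sx d.sy (d.W q) (mA L.μA q d) (d.ch q k) (e q)) a b z ≤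
      den d q (MPm d.sx d.sy (d.W q) (H747.A.GG q d) (L.cP q)) a b z :=
    coA_le (v₁ := fun _ => 0) (v₂ := fun _ => 0) (a := a) (b := b) F.big' F.lay (by norm_num)
      (he.2 q) BB_nn (by norm_num) n1 n3 n2
  have e2 : Mz L q d .P2 = MPm d.sx d.sy (d.W q) (H747.A.GG q d) (L.cP q) := by
    show MPm d.sx d.sy (d.W q) (L.GP q d) (L.cP q) = _
    rw [hG]
  rw [e2]
  rcases hk with rfl | rfl
  · exact key
  · exact key

end Vale.Agent.P088.R2.H912.E
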